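import Vale.Agent.P073.Squeeze.Main

/-!
# P073: singularities in small balls are removable below the dimension
-/

open Vale.Agent.P073.Squeeze in
theorem Vale.Agent.Results.P073.SmallBallSingularities.result
    (p : ℝ) (hp : 1 ≤ p) (hp3 : p < 3) (Ω Λ : Set E3) (hΩ : IsOpen Ω)
    (hΩb : Bornology.IsBounded Ω) (hΛb : Bornology.IsBounded Λ)
    (f : E3 → E3)
    (G : E3 → Mat3)
    (hf : IsSobolevHomeo p Ω Λ f G) (hsm : SmoothableInSmallBalls Ω Λ f) :
    Approximable p Ω Λ f G :=
  approximable_of_smoothable hp hp3 hΩ hΩb hΛb hf hsm
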